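import Vale.Agent.P031.H928.Merge

/-!
The values of Euler's function: the question of Erdős and Hall, regular variation of `V(x)` and of
the whole law of the multiplicity on the `log log` scale, and the large prime of a totient.
-/

namespace Vale.Agent.Results.P031.MultiplicityLaw

open Filter Topology Vale.Agent.P031.ML

theorem result :
    -- (1) Question 2 as posed: `V(cx)/V(x) → c`
    (∀ c : ℝ, 0 < c → Tendsto (fun x : ℝ =>
        (Set.ncard {v : ℕ | (∃ n : ℕ, 1 ≤ n ∧ Nat.totient n = v) ∧ (v : ℝ) ≤ c * x} : ℝ) /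
        (Set.ncard {v : ℕ | (∃ n : ℕ, 1 ≤ n ∧ Nat.totient n = v) ∧ (v : ℝ) ≤ x} : ℝ))
      atTop (𝓝 c)) ∧
    -- (2) the same for powers of `x`: `V(x^u) ~ x^(u-1) V(x) / u`
    (∀ u : ℝ, 0 < u →
      Tendsto (fun x : ℝ => (V (x ^ u) : ℝ) / (x ^ (u - 1) * V x)) atTop (𝓝 (1 / u))) ∧
    -- (3) slow variation of the law of the multiplicity on the `log log` scale
    (∀ (ε : ℝ) (P : ℕ), 0 < ε → ∃ δ : ℝ, 0 < δ ∧ ∀ᶠ x : ℝ in atTop, ∀ y : ℝ, 3 ≤ y →
      |Real.log (Real.log y) - Real.log (Real.log x)| ≤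
        δ * Real.log (Real.log x) ^ ((19 : ℝ) / 20) →
      ∀ S K : Set ℕ, Stable P S →
        |(VSK S K y : ℝ) * Real.log y / y - (VSK S K x : ℝ) * Real.log x / x| ≤
          ε * ((V x : ℝ) * Real.log x / x)) ∧
    -- (4) size and multiplicity are asymptotically independent, uniformly down to `c = 0`
    (∀ (B ε : ℝ) (P : ℕ), 0 < ε → ∀ᶠ x : ℝ in atTop, ∀ c ∈ Set.Icc (0 : ℝ) B,
      ∀ S K : Set ℕ, Stable P S → |(VSK S K (c * x) : ℝ) - c * VSK S K x| ≤ ε * V x) ∧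
    -- (5) (1) and (2) for the totients of given multiplicity
    (∀ (P : ℕ) (S K : Set ℕ), Stable P S →
      (∃ δ : ℝ, 0 < δ ∧ ∀ᶠ x : ℝ in atTop, δ * V x ≤ VSK S K x) →
      (∀ c : ℝ, 0 < c →
        Tendsto (fun x : ℝ => (VSK S K (c * x) : ℝ) / VSK S K x) atTop (𝓝 c)) ∧
      ∀ u : ℝ, 0 < u →
        Tendsto (fun x : ℝ => (VSK S K (x ^ u) : ℝ) / (x ^ (u - 1) * VSK S K x)) atTop
          (𝓝 (1 / u))) ∧
    -- (6) almost every totient has a large prime, common to all its preimages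
    (∀ ε : ℝ, 0 < ε →
      Tendsto (fun x : ℝ => (N (fun v : ℕ => ∃ p : ℕ, IsTop v p ∧ (v : ℝ) ^ (1 - ε) ≤ (p : ℝ) ∧
        IsTotient (v / (p - 1)) ∧ ∀ n : ℕ, 1 ≤ n → (Nat.totient n = v ↔
          ∃ m : ℕ, 1 ≤ m ∧ Nat.totient m = v / (p - 1) ∧ n = p * m)) x : ℝ) / V x)
        atTop (𝓝 1)) ∧
    -- (7) the large prime `p` and the totient `v / (p - 1)` are asymptotically independent
    (∀ (R : Set ℕ) (δ : ℝ),
      Tendsto (fun y : ℝ => (primesIn R y : ℝ) / primesIn Set.univ y) atTop (𝓝 δ) →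
      ∀ c : ℝ, 0 < c → ∀ ε : ℝ, 0 < ε → ∀ᶠ x : ℝ in atTop, ∀ D : Set ℕ,
        |(N (fun v => ∃ p : ℕ, IsTop v p ∧ p ∈ R ∧ v / (p - 1) ∈ D) (c * x) : ℝ) -
          c * δ * N (fun v => ∃ p : ℕ, IsTop v p ∧ v / (p - 1) ∈ D) x| ≤ ε * V x) ∧
    -- (8) the large prime is equidistributed in the reduced residue classes
    (∀ q a : ℕ, 1 ≤ q → Nat.Coprime a q → ∀ c : ℝ, 0 < c →
      Tendsto (fun x : ℝ =>
        (N (fun v : ℕ => ∃ p : ℕ, IsTop v p ∧ p ≡ a [MOD q]) (c * x) : ℝ) / V x)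
        atTop (𝓝 (c / (q.totient : ℝ)))) :=
  ⟨fun c hc => Vale.Agent.P031.main c hc, power_law, fun ε P hε => slow_variation ε P hε,
    fun B ε P hε => law B ε P hε,
    fun P S K hS h => by
      obtain ⟨δ, hδ, hlow⟩ := h
      exact ⟨fun c hc => ratio P S K hS δ hδ hlow c hc,
        fun u hu => power_ratio P S K hS δ hδ hlow u hu⟩,
    top_structure, top_indep, top_ap⟩

end Vale.Agent.Results.P031.MultiplicityLaw
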