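import Vale.Agent.P031.H951.Top

/-!
Regular variation of the number of values of Euler's function.
-/

namespace Vale.Agent.Results.P031.RegularVariation

open Filter Topology

/-- `V(x)`: the number of distinct values `v ≤ x` of Euler's function. -/
noncomputable def V (x : ℝ) : ℕ :=
  Set.ncard {v : ℕ | (∃ n : ℕ, 1 ≤ n ∧ Nat.totient n = v) ∧ (v : ℝ) ≤ x}

theorem result :
    -- (1) Question 2 as posed: `V(cx)/V(x) → c`
    (∀ c : ℝ, 0 < c → Tendsto (fun x : ℝ => (V (c * x) : ℝ) / V x) atTop (𝓝 c)) ∧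
    -- (2) powers: `V(x^u) ~ x^(u-1) V(x) / u`
    (∀ u : ℝ, 0 < u →
      Tendsto (fun x : ℝ => (V (x ^ u) : ℝ) / (x ^ (u - 1) * V x)) atTop (𝓝 (1 / u))) ∧
    -- (3) the general law: `V(y)/V(x) ~ (y/x) (log x/log y)`, with a window on the `log log` scale
    (∀ ε : ℝ, 0 < ε → ∃ δ : ℝ, 0 < δ ∧ ∀ᶠ x : ℝ in atTop, ∀ y : ℝ, 3 ≤ y →
      |Real.log (Real.log y) - Real.log (Real.log x)| ≤
        δ * Real.log (Real.log x) ^ ((19 : ℝ) / 20) →
      |(V y : ℝ) / V x - y / x * (Real.log x / Real.log y)| ≤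
        ε * (y / x * (Real.log x / Real.log y))) := by
  refine ⟨fun c hc => Vale.Agent.P031.main c hc, Vale.Agent.P031.ML.power_law, fun ε hε => ?_⟩
  obtain ⟨δ, hδ, h⟩ := Vale.Agent.P031.ML.slow_variation ε 0 hε
  refine ⟨δ, hδ, ?_⟩
  filter_upwards [h, eventually_ge_atTop (3 : ℝ)] with x hx hx3 y hy hxy
  have h1 := hx y hy hxy Set.univ Set.univ (Vale.Agent.P031.ML.stable_univ 0)
  rw [Vale.Agent.P031.ML.VSK_univ, Vale.Agent.P031.ML.VSK_univ] at h1
  have hV1 : (1 : ℝ) ≤ (V x : ℝ) := by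
    exact_mod_cast Vale.Agent.P031.ML.V_pos (x := x) (by linarith only [hx3])
  have hlx : 0 < Real.log x := Real.log_pos (by linarith only [hx3])
  have hly : 0 < Real.log y := Real.log_pos (by linarith only [hy])
  have hx0 : 0 < x := by linarith only [hx3]
  have hy0 : 0 < y := by linarith only [hy]
  change |(V y : ℝ) * Real.log y / y - (V x : ℝ) * Real.log x / x| ≤
    ε * ((V x : ℝ) * Real.log x / x) at h1
  have hV0 : 0 < (V x : ℝ) := by linarith only [hV1]
  have e : (V y : ℝ) / V x - y / x * (Real.log x / Real.log y) =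
      ((V y : ℝ) * Real.log y / y - (V x : ℝ) * Real.log x / x) * (y / (Real.log y * V x)) := by
    field_simp
  have hp : 0 < y / (Real.log y * V x) := by positivity
  rw [e, abs_mul, abs_of_pos hp]
  refine (mul_le_mul_of_nonneg_right h1 hp.le).trans (le_of_eq ?_)
  field_simp

end Vale.Agent.Results.P031.RegularVariation
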