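import Vale.Agent.P031.Bdl.B2

namespace Vale.Agent.Results.P031.UniformRatio

open Filter Topology

private theorem fin_tot (y : ℝ) :
    {v : ℕ | (∃ n : ℕ, 1 ≤ n ∧ Nat.totient n = v) ∧ (v : ℝ) ≤ y}.Finite := by
  refine (Set.finite_Iic ⌊y⌋₊).subset ?_
  rintro v ⟨-, hv⟩
  exact Nat.le_floor hv

private theorem mono_tot {y z : ℝ} (h : y ≤ z) :
    (Set.ncard {v : ℕ | (∃ n : ℕ, 1 ≤ n ∧ Nat.totient n = v) ∧ (v : ℝ) ≤ y} : ℝ) ≤
      (Set.ncard {v : ℕ | (∃ n : ℕ, 1 ≤ n ∧ Nat.totient n = v) ∧ (v : ℝ) ≤ z} : ℝ) := by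
  have := Set.ncard_le_ncard (s := {v : ℕ | (∃ n : ℕ, 1 ≤ n ∧ Nat.totient n = v) ∧ (v : ℝ) ≤ y})
    (t := {v : ℕ | (∃ n : ℕ, 1 ≤ n ∧ Nat.totient n = v) ∧ (v : ℝ) ≤ z})
    (fun v hv => ⟨hv.1, hv.2.trans h⟩) (fin_tot z)
  exact_mod_cast this

private theorem zero_tot :
    (Set.ncard {v : ℕ | (∃ n : ℕ, 1 ≤ n ∧ Nat.totient n = v) ∧ (v : ℝ) ≤ 0} : ℝ) = 0 := by
  have : {v : ℕ | (∃ n : ℕ, 1 ≤ n ∧ Nat.totient n = v) ∧ (v : ℝ) ≤ 0} = ∅ := by
    ext v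
    simp only [Set.mem_ofPred_eq, Set.mem_empty_iff_false, iff_false, not_and, not_le]
    rintro ⟨n, hn, rfl⟩
    exact_mod_cast Nat.totient_pos.2 hn
  rw [this]; simp

/-- **Question 2 (Erdős–Hall 1976), in uniform form.** Let `V(x)` be the number of distinct values
`v ≤ x` of Euler's totient function. Then `V(cx)/V(x) → c` as `x → ∞`, uniformly for `c` in every
interval `[0, B]`. -/
theorem result (B : ℝ) :
    TendstoUniformlyOn (fun x c : ℝ =>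
        (Set.ncard {v : ℕ | (∃ n : ℕ, 1 ≤ n ∧ Nat.totient n = v) ∧ (v : ℝ) ≤ c * x} : ℝ) /
        (Set.ncard {v : ℕ | (∃ n : ℕ, 1 ≤ n ∧ Nat.totient n = v) ∧ (v : ℝ) ≤ x} : ℝ))
      (fun c : ℝ => c) atTop (Set.Icc 0 B) := by
  rw [Metric.tendstoUniformlyOn_iff]
  intro ε hε
  obtain ⟨N, hN⟩ := exists_nat_gt (B / (ε / 2))
  -- the points `i ε / 2`
  have key : ∀ i ∈ Finset.range (N + 2), ∀ᶠ x : ℝ in atTop,
      |(Set.ncard {v : ℕ | (∃ n : ℕ, 1 ≤ n ∧ Nat.totient n = v) ∧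
            (v : ℝ) ≤ ((i : ℝ) * (ε / 2)) * x} : ℝ) /
        (Set.ncard {v : ℕ | (∃ n : ℕ, 1 ≤ n ∧ Nat.totient n = v) ∧ (v : ℝ) ≤ x} : ℝ) -
        (i : ℝ) * (ε / 2)| < ε / 2 := by
    intro i _
    rcases Nat.eq_zero_or_pos i with hi | hi
    · subst hi
      filter_upwards with x
      simp only [Nat.cast_zero, zero_mul]
      rw [zero_tot]
      simpa using hε
    · have hc : (0 : ℝ) < (i : ℝ) * (ε / 2) := by positivity
      have := Metric.tendsto_nhds.1 (Vale.Agent.P031.main _ hc) (ε / 2) (by positivity)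
      filter_upwards [this] with x hx
      rwa [Real.dist_eq] at hx
  have key' := (Finset.eventually_all (Finset.range (N + 2))).2 key
  filter_upwards [key', eventually_ge_atTop (0 : ℝ)] with x hx hx0 c hc
  obtain ⟨hc0, hcB⟩ := hc
  -- `i ε/2 ≤ c < (i+1) ε/2`
  have hε2 : 0 < ε / 2 := by positivity
  set i : ℕ := ⌊c / (ε / 2)⌋₊ with hi
  have h1 : (i : ℝ) * (ε / 2) ≤ c := by
    have := Nat.floor_le (div_nonneg hc0 hε2.le)
    rwa [← hi, le_div_iff₀ hε2] at this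
  have h2 : c < ((i + 1 : ℕ) : ℝ) * (ε / 2) := by
    have := Nat.lt_floor_add_one (c / (ε / 2))
    rw [← hi, div_lt_iff₀ hε2] at this
    exact_mod_cast this
  have h3 : i < N + 1 := by
    have h4 : (i : ℝ) ≤ c / (ε / 2) := Nat.floor_le (div_nonneg hc0 hε2.le)
    have h5 : c / (ε / 2) ≤ B / (ε / 2) := div_le_div_of_nonneg_right hcB hε2.le
    have h6 : (i : ℝ) < N := lt_of_le_of_lt (h4.trans h5) hN
    have : i < N := by exact_mod_cast h6
    omega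
  have hA := hx i (Finset.mem_range.2 (by omega))
  have hB := hx (i + 1) (Finset.mem_range.2 (by omega))
  have hV0 : (0 : ℝ) ≤
      (Set.ncard {v : ℕ | (∃ n : ℕ, 1 ≤ n ∧ Nat.totient n = v) ∧ (v : ℝ) ≤ x} : ℝ) := by positivity
  have hm1 := div_le_div_of_nonneg_right
    (mono_tot (mul_le_mul_of_nonneg_right h1 hx0)) hV0
  have hm2 := div_le_div_of_nonneg_right
    (mono_tot (mul_le_mul_of_nonneg_right h2.le hx0)) hV0
  rw [abs_lt] at hA hB
  have h7 : ((i + 1 : ℕ) : ℝ) * (ε / 2) = (i : ℝ) * (ε / 2) + ε / 2 := by push_cast; ring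
  rw [Real.dist_eq, abs_lt]
  constructor
  · rw [h7] at h2 hB hm2
    linarith [hB.2]
  · linarith [hA.1]

end Vale.Agent.Results.P031.UniformRatio
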